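import Crest.Agent.X212.Cg28.Defs
import Crest.Agent.X212.Lens8.Sharp

/-!
# Row 212, CG (helper48): the leaf AR

Dedekind reciprocity for `Sd`, its increment along a Farey edge, chains of slopes.
-/

set_option autoImplicit false

namespace Crest.Agent.X212.Ar48
open Finset Lens8 Cg28 Rod53
open Bor5 (Sd)

theorem sum_shift {f : ℤ → ℚ} {q : ℕ} (h : ∀ j, f (j + q) = f j) (k : ℕ) :
    ∑ i ∈ range q, f (i + k) = ∑ i ∈ range q, f i := by
  induction k with
  | zero => simp
  | succ k ih =>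
    have e1 := sum_range_succ (fun i : ℕ => f (i + k)) q
    have e2 := sum_range_succ' (fun i : ℕ => f (i + k)) q
    have e3 : ∑ i ∈ range q, f (i + (k + 1 : ℕ)) = ∑ i ∈ range q, f ((i + 1 : ℕ) + k) :=
      sum_congr rfl fun i _ => by congr 1; push_cast; ring
    have e4 := h k
    rw [add_comm] at e4
    simp only [Nat.cast_zero, zero_add] at e2
    linarith

theorem Sd_nat {p : ℕ} (hp : 0 < p) (q : ℕ) : Sd p q = ∑ j ∈ range p, dL p q j :=
  sum_congr (by simp) fun j _ => D_nat hp q j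

theorem Sd_one (q : ℤ) : Sd 1 q = 0 := sum_eq_zero fun j _ => sumStmt.2.2.1 q j

theorem Sd_shear (p q k : ℤ) : Sd p (q + k * p) = Sd p q := by simp [Sd, Bor5.D]

theorem Sd_neg {p s : ℤ} (hp : 0 < p) (hc : IsCoprime p s) : Sd p (-s) = -Sd p s := by
  obtain ⟨n, rfl⟩ := Int.eq_ofNat_of_zero_le hp.le
  have hn : 0 < n := by omega
  obtain ⟨r, hr⟩ := Int.eq_ofNat_of_zero_le (Int.emod_nonneg s hp.ne')
  obtain ⟨r', hr'⟩ := Int.eq_ofNat_of_zero_le (Int.emod_nonneg (-s) hp.ne')
  have d1 : (n : ℤ) ∣ r - s := hr ▸ (Int.mod_modEq s n).symm.dvd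
  have d2 : (n : ℤ) ∣ r' - -s := hr' ▸ (Int.mod_modEq (-s) n).symm.dvd
  have c : Nat.Coprime n r := nat_cop (by
    obtain ⟨t, ht⟩ := d1
    rw [show (r : ℤ) = s + n * t by linarith]
    exact hc.add_mul_left_right t)
  simp only [Sd, Int.natAbs_natCast, D_pos hn d1, D_pos hn d2,
    dL_rev hn c (by simpa using dvd_add d1 d2), sum_neg_distrib]
  rw [sum_shift (dL_add n r)]

/-- the right hand side of the reciprocity law -/
def R (a b : ℚ) : ℚ := -1 / 4 + (a ^ 2 + b ^ 2 + 1) / (12 * a * b)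

theorem recip {p q : ℕ} (hp : 0 < p) (hq : 0 < q) (hc : Nat.Coprime p q) :
    Sd p q / p + Sd q p / q = R p q := by
  have p0 : (p : ℚ) ≠ 0 := by exact_mod_cast hp.ne'
  have q0 : (q : ℚ) ≠ 0 := by exact_mod_cast hq.ne'
  have s2 : ∀ (c : ℚ) (k : ℕ), ∑ j ∈ range k, (2 * (j : ℚ) - c) ^ 2 =
      k * c ^ 2 - 2 * c * k * (k - 1) + 2 * k * (k - 1) * (2 * k - 1) / 3 := fun c k => by
    induction k with
    | zero => simp
    | succ k ih => rw [sum_range_succ, ih]; push_cast; ring
  have s3 : ∀ (c : ℚ) (k : ℕ), ∑ j ∈ range k, ((j : ℚ) ^ 2 - c * j) =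
      k * (k - 1) * (2 * k - 1) / 6 - c * k * (k - 1) / 2 := fun c k => by
    induction k with
    | zero => simp
    | succ k ih => rw [sum_range_succ, ih]; push_cast; ring
  have T : ∀ i : ℕ, i ≤ q → ∑ j ∈ range p, dL q p (j + i) =
      ∑ j ∈ range p, dL q p j + ((i : ℚ) ^ 2 - q * i) / q := fun i hi => by
    induction i with
    | zero => simp
    | succ k ih =>
      have e1 := sum_range_succ (fun i : ℕ => dL q p (i + k)) p
      have e2 := sum_range_succ' (fun i : ℕ => dL q p (i + k)) p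
      have e3 : ∑ i ∈ range p, dL q p (i + (k + 1 : ℕ)) = ∑ i ∈ range p, dL q p ((i + 1 : ℕ) + k) :=
        sum_congr rfl fun i _ => by congr 1; push_cast; ring
      have e4 := dL_shift hq hc.symm k
      rw [add_comm, Int.emod_eq_of_lt (by omega) (by omega)] at e4
      simp only [Nat.cast_zero, zero_add] at e2
      have e5 := ih (by omega)
      have e6 : (((k + 1 : ℕ) : ℚ) ^ 2 - q * (k + 1 : ℕ)) / q =
          ((k : ℚ) ^ 2 - q * k) / q + (2 * ((k : ℤ) : ℚ) + 1 - q) / q := by push_cast; ring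
      linarith
  have A : ∑ i ∈ range q, ∑ j ∈ range p, dL q p (j + i) = p * Sd q p := by
    rw [sum_comm, Sd_nat hq, sum_congr rfl fun j _ => (sum_congr rfl fun i _ => by
      rw [add_comm]).trans (sum_shift (dL_add q p) j)]
    simp
  rw [sum_congr rfl fun i hi => T i (mem_range.1 hi).le, sum_add_distrib, ← sum_div, s3, sum_const,
    card_range, nsmul_eq_mul] at A
  have B : Sd p q + ∑ j ∈ range p, dL q p j =
      ∑ j ∈ range p, (-1 / 4 + (2 * (j : ℚ) - (p + q - 1)) ^ 2 / (4 * p * q)) := by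
    rw [Sd_nat hp, ← sum_add_distrib]
    refine sum_congr rfl fun j hj => ?_
    rw [dL_rec hp hq hc (by omega) (by have := mem_range.1 hj; omega)]
    push_cast; ring
  rw [sum_add_distrib, ← sum_div, ← sum_div, s2, sum_const, card_range, nsmul_eq_mul] at B
  rw [eq_sub_of_add_eq B, show Sd q p = _ from ((div_eq_iff p0).2 (A.trans (mul_comm _ _))).symm, R]
  field_simp
  ring

theorem recip' {p q : ℤ} (hp : 0 < p) (hq : 0 < q) (hc : IsCoprime p q) :
    Sd p q / p + Sd q p / q = R p q := by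
  obtain ⟨n, rfl⟩ := Int.eq_ofNat_of_zero_le hp.le
  obtain ⟨m, rfl⟩ := Int.eq_ofNat_of_zero_le hq.le
  exact_mod_cast recip (p := n) (q := m) (by omega) (by omega) (nat_cop hc)

theorem edge (n : ℕ) : ∀ p q p' q' : ℤ, p + p' ≤ n → 0 < p → 0 < p' → p' * q = p * q' + 1 →
    Sd p q / p - Sd p' q' / p' = R p p' := by
  induction n with
  | zero => intro p q p' q' h h1 h2; omega
  | succ n ih =>
    intro p q p' q' h h1 h2 e
    rw [← Sd_shear p q (-(q' / p')), ← Sd_shear p' q' (-(q' / p'))]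
    have e' : p' * (q + -(q' / p') * p) = p * (q' + -(q' / p') * p') + 1 := by linear_combination e
    have b0 : 0 ≤ q' + -(q' / p') * p' := by
      have := Int.emod_add_mul_ediv q' p'; have := Int.emod_nonneg q' h2.ne'; linarith
    have b1 : q' + -(q' / p') * p' < p' := by
      have := Int.emod_add_mul_ediv q' p'; have := Int.emod_lt_of_pos q' h2; linarith
    generalize q + -(q' / p') * p = a at *
    generalize q' + -(q' / p') * p' = b at *
    have a0 : 0 < a := by nlinarith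
    have r1 := recip' h1 a0 ⟨-b, p', by linear_combination e'⟩
    rcases b0.eq_or_lt with rfl | b0
    · obtain rfl : p' = 1 := by nlinarith
      obtain rfl : a = 1 := by linarith
      simpa [Sd_one] using r1
    · have r2 := recip' h2 b0 ⟨a, -p, by linear_combination e'⟩
      have a1 : a ≤ p := by nlinarith
      have r3 := ih b p' a p (by omega) b0 a0 (by linear_combination e')
      have k : R p a - R p' b + R b a = R p p' := by
        have x1 : (p : ℚ) ≠ 0 := by exact_mod_cast h1.ne'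
        have x2 : (p' : ℚ) ≠ 0 := by exact_mod_cast h2.ne'
        have x3 : (a : ℚ) ≠ 0 := by exact_mod_cast a0.ne'
        have x4 : (b : ℚ) ≠ 0 := by exact_mod_cast b0.ne'
        have x5 : (p' : ℚ) * a = p * b + 1 := by exact_mod_cast e'
        simp only [R]
        field_simp
        linear_combination 4 * ((a : ℚ) * b + p * a - p * p' - p' * b) * x5
      linarith

theorem exists_path (m : ℕ) : ∀ u v : Z2, 0 < u.2 → 0 < v.2 → IsCoprime u.2 u.1 → IsCoprime v.2 v.1 →
    dt u v < 0 → -dt u v ≤ m → ∃ (n : ℕ) (b : ℕ → Z2), 1 ≤ n ∧ b 0 = u ∧ b n = v ∧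
      (∀ i < n, dt (b i) (b (i + 1)) = -1) ∧ ∀ i, 0 < (b i).2 := by
  induction m with
  | zero => intro u v _ _ _ _ h h'; omega
  | succ m ih =>
    intro u v hu hv cu cv h h'
    by_cases h1 : dt u v = -1
    · refine ⟨1, fun i => if i = 0 then u else v, le_rfl, rfl, rfl, fun i hi => ?_, fun i => ?_⟩
      · obtain rfl : i = 0 := by omega
        exact h1
      · dsimp only; split_ifs <;> assumption
    obtain ⟨x, y, e⟩ := cu
    obtain ⟨z, w, f⟩ := cv
    obtain ⟨d, hd⟩ : ∃ d, d = -dt u v := ⟨_, rfl⟩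
    obtain ⟨α, hα⟩ : ∃ α, α = -(y * v.1 + x * v.2) := ⟨_, rfl⟩
    have d0 : 0 < d := by omega
    have m0 := Int.emod_add_mul_ediv α d
    have m1 := Int.emod_nonneg α d0.ne'
    have m2 := Int.emod_lt_of_pos α d0
    generalize α % d = r at *
    generalize α / d = k at *
    simp only [dt] at hd
    have e1 : d * (x - k * u.1) = v.1 + r * u.1 := by
      linear_combination x * hd - u.1 * m0 - u.1 * hα + v.1 * e
    have e2 : d * (-y - k * u.2) = v.2 + r * u.2 := by
      linear_combination (-y) * hd - u.2 * m0 - u.2 * hα + v.2 * e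
    have r0 : r ≠ 0 := by
      rintro rfl
      have : d ∣ 1 := ⟨z * (-y - k * u.2) + w * (x - k * u.1), by
        linear_combination (-z) * e2 - w * e1 - f⟩
      have := Int.le_of_dvd one_pos this
      simp only [dt] at h h1
      omega
    have e3 : dt (x - k * u.1, -y - k * u.2) v = -r := by
      simp only [dt]
      linear_combination hα + m0 - k * hd
    have e4 : dt u (x - k * u.1, -y - k * u.2) = -1 := by
      simp only [dt]
      linear_combination (-1) * e
    obtain ⟨n, b, -, b0, bn, bd, bp⟩ := ih (x - k * u.1, -y - k * u.2) v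
      (by dsimp only; nlinarith) hv ⟨-u.1, u.2, by dsimp only; linear_combination e⟩ ⟨z, w, f⟩
      (by omega) (by simp only [dt] at h' e3 ⊢; omega)
    refine ⟨n + 1, fun i => Nat.casesOn i u b, by omega, rfl, bn, fun i hi => ?_, fun i => ?_⟩
    · cases i with
      | zero => exact (congrArg (dt u) b0).trans e4
      | succ i => exact bd i (by omega)
    · cases i with
      | zero => exact hu
      | succ i => exact bp i

theorem exists_ch {u v : Z2} (hu : 0 < u.2) (hv : 0 < v.2) (cu : IsCoprime u.2 u.1)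
    (cv : IsCoprime v.2 v.1) (h : dt u v < 0) :
    ∃ n : ℕ, ∀ L : ℕ, n ≤ L → ∃ c : Ch L, c.a 1 = u ∧ c.a L = v := by
  obtain ⟨n, b, n1, b0, bn, bd, bp⟩ := exists_path (-dt u v).toNat u v hu hv cu cv h (by omega)
  refine ⟨n + 2, fun L hL => ⟨⟨fun i => b (min n (i - 1).toNat), n, n1, hL, fun i hi => ?_,
    fun i hi => ?_, fun i h1 h2 => ?_, fun i => bp _⟩, by simpa using b0, ?_⟩⟩
  · congr 1; omega
  · congr 1; omega
  · rw [show min n (i - 1).toNat = min n (i - 1 - 1).toNat + 1 by omega]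
    exact bd _ (by omega)
  · rw [← bn]; dsimp only; congr 1; omega

/-- the potential of the defect -/
def pot (a : Z2) : ℚ := (a.1 - 12 * Sd a.2 a.1) / a.2

theorem del_eq {L : ℕ} (c : Ch L) : c.del = (pot (c.a L) - pot (c.a 1) : ℚ) := by
  have e := sum_range_sub (fun j : ℕ => (pot (c.a (j + 1)) : ℝ)) c.n
  rw [c.a_L, Ch.del, Rat.cast_sub]
  refine Eq.trans (sum_congr rfl fun j hj => ?_) (e.trans (by simp))
  have hj := mem_range.1 hj
  have d := c.det (j + 2) (by omega) (by omega)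
  rw [show (j : ℤ) + 2 - 1 = j + 1 by ring, dt] at d
  have p1 := c.pos (j + 1)
  have p2 := c.pos (j + 2)
  have k := edge _ _ (c.a (j + 2)).1 _ (c.a (j + 1)).1 (Int.self_le_toNat _) p2 p1
    (by linear_combination (-1) * d)
  rw [show (((j + 1 : ℕ) : ℤ) + 1) = j + 2 by push_cast; ring]
  simp only [Ch.t]
  have x1 : ((c.a (j + 1)).2 : ℚ) ≠ 0 := by exact_mod_cast p1.ne'
  have x2 : ((c.a (j + 2)).2 : ℚ) ≠ 0 := by exact_mod_cast p2.ne'
  have x3 : ((c.a (j + 1)).1 : ℚ) * (c.a (j + 2)).2 - (c.a (j + 1)).2 * (c.a (j + 2)).1 = -1 := by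
    exact_mod_cast d
  have : (3 - (c.a (j + 2)).2 / (c.a (j + 1)).2 - (c.a (j + 1)).2 / (c.a (j + 2)).2 : ℚ) =
      pot (c.a (j + 2)) - pot (c.a (j + 1)) := by
    simp only [pot, sub_div, mul_div_assoc]
    rw [eq_add_of_sub_eq k, R]
    field_simp
    linear_combination (4 : ℚ) * x3
  exact_mod_cast this

/-- **AR** -/
theorem arStmt : ArStmt := by
  refine ⟨fun p s => Sd_neg, fun p q₀ q₁ hp hq c₀ c₁ => ?_⟩
  obtain ⟨n, h⟩ := exists_ch (u := (q₀, p)) (v := (q₁, p)) hp hp c₀ c₁ (by simp only [dt]; nlinarith)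
  obtain ⟨n', h'⟩ := exists_ch (u := (q₀, 1)) (v := (q₁, 1)) one_pos one_pos isCoprime_one_left
    isCoprime_one_left (by simp only [dt]; omega)
  obtain ⟨c, a, b⟩ := h (n + n') (by omega)
  obtain ⟨c', a', b'⟩ := h' (n + n') (by omega)
  refine ⟨n + n', c', c, a, b, a', b', fun e => ?_⟩
  rw [del_eq, del_eq, a, b, a', b'] at e
  have e' : pot (q₁, 1) - pot (q₀, 1) = p * (pot (q₁, p) - pot (q₀, p)) := by exact_mod_cast e
  have x : (p : ℚ) ≠ 0 := by exact_mod_cast hp.ne'
  simp only [pot, Sd_one] at e'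
  field_simp at e'
  push_cast at e'
  linarith

end Crest.Agent.X212.Ar48
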